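import Crest.Agent.N250.Cp.Sc
import Crest.Agent.N250.Cv.Jet
import Crest.Agent.N250.Gr.AA

/-!
Row 250, compactness, part 2 (helper96): `CptS` from `SheetS`.
-/

set_option autoImplicit false
open MeasureTheory Set Filter Topology Metric
open scoped ContDiff InnerProductSpace
open Crest.GeometryTopology.MCF

noncomputable section

namespace Crest.Agent.N250.Cp

open Tr Cv

theorem PC_sub {X : ST} {ρ : ℝ} (h0 : 0 < ρ) (h1 : ρ ≤ 1) : PC X ρ ⊆ closedBall X ρ := by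
  rintro p ⟨a, b, d⟩
  rw [← closedBall_prod_same]
  refine ⟨ball_subset_closedBall a, ?_⟩
  rw [mem_closedBall, Real.dist_eq, abs_le]
  constructor <;> nlinarith

/-- uniform charts around a limit point -/
theorem exists_chart (hS : SheetS) {α : Type} {l : Filter α} [l.NeBot] {Fk : α → Mv} {p : ST}
    {U : Set ST}
    (hU : U ∈ 𝓝 p) {ρ₀ : ℝ} (hρ₀ : 0 < ρ₀)
    (h : ∀ᶠ k in l, (Fk k).IsMCF ∧ (Fk k).Proper U ∧ ∀ q ∈ (Fk k).M ∩ U, (Fk k).Reach q ρ₀)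
    (hp : ∀ ε > 0, ∀ᶠ k in l, ∃ q ∈ (Fk k).M, dist q p < ε) :
    ∃ (δ b : ℝ) (C : ℕ → ℝ) (φk : α → ST → ℝ), 0 < δ ∧ 0 < b ∧ ball p δ ⊆ U ∧
      ∀ᶠ k in l, (Fk k).Loc (ball p δ) (φk k) ∧ (∀ q ∈ ball p δ, b ≤ ‖gradX (φk k) q.1 q.2‖) ∧
        ∀ m, ∀ q ∈ ball p δ, ‖iteratedFDeriv ℝ m (φk k) q‖ ≤ C m := by
  obtain ⟨c, hc, hs⟩ := sheet_scaled hS
  obtain ⟨r, hr, hrU⟩ := nhds_basis_closedBall.mem_iff.1 hU
  set ρ := min ρ₀ (min (r / 2) 1) with hρ
  have hρ0 : 0 < ρ := by positivity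
  have hρ1 : ρ ≤ ρ₀ := min_le_left _ _
  have hρ2 : ρ ≤ r / 2 := (min_le_right _ _).trans (min_le_left _ _)
  have hρ3 : ρ ≤ 1 := (min_le_right _ _).trans (min_le_right _ _)
  obtain ⟨C, hC⟩ := hs ρ hρ0
  have key : ∀ F : Mv, F.IsMCF → F.Proper U → (∀ q ∈ F.M ∩ U, F.Reach q ρ₀) → ∀ X ∈ F.M,
      dist X p ≤ r / 2 → ∃ (W : Set ST) (φ : ST → ℝ), PC X (c * ρ) ⊆ W ∧ F.Loc W φ ∧
      (∀ q ∈ PC X (c * ρ), 1 / (2 * ρ) ≤ ‖gradX φ q.1 q.2‖) ∧
      ∀ m, ∀ q ∈ PC X (c * ρ), ‖iteratedFDeriv ℝ m φ q‖ ≤ C m := by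
    intro F h1 h2 h3 X hX hd
    have hsub : PC X ρ ⊆ U := fun q hq => hrU (by
      have := PC_sub hρ0 hρ3 hq
      rw [mem_closedBall] at this ⊢
      linarith [dist_triangle q X p])
    exact hC F X h1 hX (proper_mono h2 hsub) fun q hq =>
      reach_le (n_unit h1.1 hq.1) (h3 q ⟨hq.1, hsub hq.2⟩) hρ1
  set σ := c * ρ with hσ
  have hσ0 : 0 < σ := by positivity
  set v := 2 * ρ * |C 1| with hv
  have hv0 : 0 ≤ v := by positivity
  have hV : ∀ F : Mv, F.IsMCF → F.Proper U → (∀ q ∈ F.M ∩ U, F.Reach q ρ₀) → ∀ X ∈ F.M,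
      dist X p ≤ r / 2 → |F.V X| ≤ v := by
    intro F h1 h2 h3 X hX hd
    obtain ⟨W, φ, a1, a2, a3, a4⟩ := key F h1 h2 h3 X hX hd
    have hXP : X ∈ PC X σ := ⟨mem_ball_self hσ0, by linarith [sq_pos_of_pos hσ0], le_rfl⟩
    have b1 := a3 X hXP
    have b2 := a4 1 X hXP
    rw [norm_iteratedFDeriv_one] at b2
    have b3 : |dT φ X| ≤ |C 1| := by
      rw [← fd_tm (loc_diff a2 (a1 hXP))]
      have := (fderiv ℝ φ X).le_opNorm (0, 1)
      simp only [Prod.norm_mk, norm_zero, norm_one, zero_le_one, sup_of_le_right, mul_one,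
        Real.norm_eq_abs] at this
      exact this.trans (b2.trans (le_abs_self _))
    have b4 : 0 < 1 / (2 * ρ) := by positivity
    rw [a2.V_eq X (a1 hXP) hX, abs_div, abs_neg, abs_norm, div_le_iff₀ (b4.trans_le b1)]
    calc |dT φ X| ≤ |C 1| := b3
      _ = v * (1 / (2 * ρ)) := by rw [hv]; field_simp
      _ ≤ _ := mul_le_mul_of_nonneg_left b1 hv0
  set δ := min (min (r / 2) σ / (2 * v + 4)) (σ ^ 2 / 2) with hδ
  have hδ0 : 0 < δ := by positivity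
  have hδ1 : δ * (2 * v + 4) ≤ min (r / 2) σ :=
    (le_div_iff₀ (by positivity)).1 (min_le_left _ _)
  have hδ2 : δ * (2 * v + 4) ≤ r / 2 := hδ1.trans (min_le_left _ _)
  have hδ3 : δ * (2 * v + 4) ≤ σ := hδ1.trans (min_le_right _ _)
  have hδ4 : δ ≤ σ ^ 2 / 2 := min_le_right _ _
  have hvδ : 0 ≤ v * δ := by positivity
  have main : ∀ᶠ k in l, ∃ φ : ST → ℝ, (Fk k).Loc (ball p δ) φ ∧
      (∀ q ∈ ball p δ, 1 / (2 * ρ) ≤ ‖gradX φ q.1 q.2‖) ∧
        ∀ m, ∀ q ∈ ball p δ, ‖iteratedFDeriv ℝ m φ q‖ ≤ C m := by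
    filter_upwards [h, hp δ hδ0] with k ⟨h1, h2, h3⟩ ⟨q, hq, hd⟩
    have d1 : dist q.1 p.1 < δ := (le_max_left _ _).trans_lt hd
    have d2 : dist q.2 p.2 < δ := (le_max_right _ _).trans_lt hd
    rw [Real.dist_eq, abs_lt] at d2
    have d3 : (v + 1) * (p.2 + δ - q.2) ≤ (v + 1) * (2 * δ) :=
      mul_le_mul_of_nonneg_left (by linarith) (by linarith)
    have hB : ∀ z ∈ closedBall q.1 ((v + 1) * (p.2 + δ - q.2)) ×ˢ Icc q.2 (p.2 + δ),
        dist z p ≤ r / 2 := by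
      rintro z ⟨a, b, d⟩
      rw [mem_closedBall] at a
      rw [Prod.dist_eq, Real.dist_eq]
      refine max_le ?_ (abs_le.2 ⟨by nlinarith, by nlinarith⟩)
      nlinarith [dist_triangle z.1 q.1 p.1]
    obtain ⟨x1, e1, e2⟩ := persist h1.1 hv0 (t0 := q.2) (t1 := p.2 + δ) (by linarith) hq
      (proper_mono h2 fun z hz => hrU ((hB z hz).trans (by linarith)))
      (fun z hz hz2 => hV _ h1 h2 h3 z hz (hB z hz2))
    obtain ⟨W, φ, a1, a2, a3, a4⟩ := key _ h1 h2 h3 _ e1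
      (hB _ ⟨e2, by dsimp only; linarith, le_rfl⟩)
    have hsub : ball p δ ⊆ PC (x1, p.2 + δ) σ := fun z hz => by
      have z1 : dist z.1 p.1 < δ := (le_max_left _ _).trans_lt hz
      have z2 : dist z.2 p.2 < δ := (le_max_right _ _).trans_lt hz
      rw [Real.dist_eq, abs_lt] at z2
      refine ⟨?_, by dsimp only; linarith, by dsimp only; linarith⟩
      rw [mem_ball]
      have t1 := dist_triangle4 z.1 p.1 q.1 x1
      rw [dist_comm p.1 q.1, dist_comm q.1 x1] at t1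
      dsimp only
      nlinarith
    exact ⟨φ, ⟨isOpen_ball, a2.sm.mono (hsub.trans a1), fun z hz => a2.ne z (a1 (hsub hz)),
      fun z hz => a2.mem z (a1 (hsub hz)), fun z hz => a2.n_eq z (a1 (hsub hz)),
      fun z hz => a2.V_eq z (a1 (hsub hz))⟩, fun z hz => a3 z (hsub hz),
      fun m z hz => a4 m z (hsub hz)⟩
  obtain ⟨φk, hφk⟩ := main.choice
  exact ⟨δ, 1 / (2 * ρ), C, φk, hδ0, by positivity,
    (ball_subset_closedBall.trans (closedBall_subset_closedBall (by nlinarith))).trans hrU, hφk⟩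

/-- **Compactness theorem.** -/
theorem cptS_of (hS : SheetS) : CptS := by
  intro α l Fk Ω hΩ h
  set K : Set ST := {p | p ∈ Ω ∧ ∀ ε > 0, ∀ᶠ k in (l : Filter α), ∃ q ∈ (Fk k).M, dist q p < ε}
    with hK
  have hsel : ∀ p : ST, ∃ pk : α → ST, p ∈ K →
      Tendsto pk l (𝓝 p) ∧ ∀ᶠ k in (l : Filter α), pk k ∈ (Fk k).M := by
    intro p
    by_cases hp : p ∈ K
    swap
    · exact ⟨fun _ => p, fun h => absurd h hp⟩
    obtain ⟨U, hU, ρ, -, hk⟩ := h p hp.1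
    obtain ⟨r, hr, hrU⟩ := nhds_basis_closedBall.mem_iff.1 hU
    obtain ⟨pk, h1, h2⟩ := exists_tendsto_of_closed (l := l) (x := p)
      (S := fun k => (Fk k).M ∩ closedBall p r)
      (hk.mono fun k a => closed_of_proper isClosed_closedBall (proper_mono a.2.1 hrU))
      (fun ε hε => (hp.2 (min ε r) (lt_min hε hr)).mono fun k ⟨q, a, b⟩ =>
        ⟨q, ⟨a, (b.trans_le (min_le_right _ _)).le⟩, b.trans_le (min_le_left _ _)⟩)
    exact ⟨pk, fun _ => ⟨h1, h2.mono fun _ a => a.1⟩⟩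
  choose sel hsel using hsel
  have hmem : ∀ (p : ST) (pk : α → ST), p ∈ Ω → Tendsto pk l (𝓝 p) →
      (∀ᶠ k in (l : Filter α), pk k ∈ (Fk k).M) → p ∈ K := fun p pk a b d =>
    ⟨a, fun ε hε => by
      filter_upwards [d, Metric.tendsto_nhds.1 b ε hε] with k e1 e2 using ⟨_, e1, e2⟩⟩
  let F : Mv := ⟨K, fun p => limUnder l fun k => (Fk k).n (sel p k),
    fun p => limUnder l fun k => (Fk k).V (sel p k)⟩
  have hnear : ∀ p ∈ Ω, p ∈ F.M → ∃ (W : Set ST) (φ : ST → ℝ) (φk : α → ST → ℝ), p ∈ W ∧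
      F.Loc W φ ∧ (∀ᶠ k in (l : Filter α), (Fk k).Loc W (φk k)) ∧
      ∀ m : ℕ, TendstoLocallyUniformlyOn (fun k => iteratedFDeriv ℝ m (φk k))
        (iteratedFDeriv ℝ m φ) l W := by
    intro p hp hpK
    obtain ⟨U, hU, ρ, hρ, hk⟩ := h p hp
    obtain ⟨δ, b, C, φk, hδ, hb, hsub, hφk⟩ := exists_chart hS (inter_mem hU (hΩ.mem_nhds hp)) hρ
      (hk.mono fun k a => ⟨a.1, proper_mono a.2.1 inter_subset_left,
        fun q hq => a.2.2 q ⟨hq.1, hq.2.1⟩⟩) hpK.2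
    have hloc := hφk.mono fun k a => a.1
    obtain ⟨φ, hφ, hJ⟩ := Gr.sm_lim l φk isOpen_ball (convex_ball p δ) isBounded_ball
      (hloc.mono fun k a => a.sm) (fun m => ⟨C m, hφk.mono fun k a => a.2.2 m⟩)
    have ht : ∀ m : ℕ, TendstoLocallyUniformlyOn (fun k => iteratedFDeriv ℝ m (φk k))
        (iteratedFDeriv ℝ m φ) l (ball p δ) := fun m => (hJ m).tendstoLocallyUniformlyOn
    have hjc : ∀ q ∈ ball p δ, ∀ qk : α → ST, Tendsto qk l (𝓝 q) → JC l φk qk φ q :=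
      fun q hq qk hqk => jc_of_tlu isOpen_ball hφ (hloc.mono fun k a => a.sm) ht hq hqk
    have hd : ∀ q ∈ ball p δ, DifferentiableAt ℝ φ q := fun q hq =>
      (hφ.contDiffAt (isOpen_ball.mem_nhds hq)).differentiableAt (by simp)
    have hne : ∀ q ∈ ball p δ, gr φ q ≠ 0 := fun q hq => by
      have e1 := (jc_gr (hjc q hq _ tendsto_const_nhds)).val.norm
      have e2 : b ≤ ‖gr φ q‖ := ge_of_tendsto e1 (hφk.mono fun k a => by
        rw [gr_eq (loc_diff a.1 hq)]; exact a.2.1 q hq)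
      exact norm_pos_iff.1 (hb.trans_le e2)
    have hne' : ∀ q ∈ ball p δ, gradX φ q.1 q.2 ≠ 0 := fun q hq => by
      rw [← gr_eq (hd q hq)]; exact hne q hq
    have hin : ∀ q ∈ ball p δ, q ∈ K → ∀ᶠ k in (l : Filter α), sel q k ∈ ball p δ :=
      fun q hq hqK => (hsel q hqK).1.eventually (isOpen_ball.mem_nhds hq)
    refine ⟨ball p δ, φ, φk, mem_ball_self hδ, ⟨isOpen_ball, hφ, hne', fun q hq => ⟨fun hqK => ?_,
      fun h0 => ?_⟩, fun q hq hqK => ?_, fun q hq hqK => ?_⟩, hloc, ht⟩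
    · refine tendsto_nhds_unique (hjc q hq _ (hsel q hqK).1).val
        (tendsto_const_nhds.congr' ?_)
      filter_upwards [hloc, hin q hq hqK, (hsel q hqK).2] with k a1 a2 a3
      exact ((a1.mem _ a2).1 a3).symm
    · let Z : Mv := ⟨{z | φ z = 0}, fun z => ‖gradX φ z.1 z.2‖⁻¹ • gradX φ z.1 z.2,
        fun z => -dT φ z / ‖gradX φ z.1 z.2‖⟩
      obtain ⟨xk, a1, a2⟩ := exists_pts (F := Z) ⟨isOpen_ball, hφ, hne', fun _ _ => Iff.rfl,
        fun _ _ _ => rfl, fun _ _ _ => rfl⟩ hloc ht hq h0 (tk := fun _ => q.2) tendsto_const_nhds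
      exact hmem q (fun k => (xk k, q.2)) (hsub hq).2 (a1.prodMk_nhds tendsto_const_nhds) a2
    · rw [← gr_eq (hd q hq)]
      refine Tendsto.limUnder_eq
        ((jc_aN (hjc q hq _ (hsel q hqK).1) (hne q hq)).val.congr' ?_)
      filter_upwards [hloc, hin q hq hqK, (hsel q hqK).2] with k a1 a2 a3
      exact (n_eq_aN a1 a2 a3).symm
    · rw [← gr_eq (hd q hq), ← fd_tm (hd q hq), div_eq_mul_inv]
      refine Tendsto.limUnder_eq
        ((jc_aV (hjc q hq _ (hsel q hqK).1) (hne q hq)).val.congr' ?_)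
      filter_upwards [hloc, hin q hq hqK, (hsel q hqK).2] with k a1 a2 a3
      exact (V_eq_aV a1 a2 a3).symm
  have hconv : Conv l Fk F Ω := by
    refine ⟨fun p hp hpK => ?_, hnear⟩
    have : ¬ ∀ ε > 0, ∀ᶠ k in (l : Filter α), ∃ q ∈ (Fk k).M, dist q p < ε :=
      fun h1 => hpK ⟨hp, h1⟩
    push Not at this
    obtain ⟨ε, hε, h1⟩ := this
    refine ⟨ball p ε, ball_mem_nhds p hε, ?_⟩
    filter_upwards [h1] with k hk
    exact disjoint_left.2 fun q a b => absurd a (not_lt.2 (hk q b))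
  refine ⟨F, ⟨fun p hp => ?_, fun p hp => ?_⟩, fun p hp => hp.1, fun p hp hpΩ => ?_, hconv⟩
  · obtain ⟨W, φ, -, a1, a2, -⟩ := hnear p hp.1 hp
    exact ⟨W, φ, a1, a2⟩
  · obtain ⟨-, a1, a2⟩ := (convJetS_holds α l Fk F Ω hconv).1 (sel p) p hp.1 (hsel p hp).1
      (hsel p hp).2
    obtain ⟨U, -, ρ, -, hk⟩ := h p hp.1
    have a3 : Tendsto (fun k => -(Fk k).H (sel p k)) l (𝓝 (-F.H p)) := by
      simp only [Mv.H, Finset.sum_apply]
      exact (tendsto_finsetSum _ fun a _ => a2 [a] a).neg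
    refine tendsto_nhds_unique a1 (a3.congr' ?_)
    filter_upwards [hk, (hsel p hp).2] with k b1 b2
    exact (b1.1.2 _ b2).symm
  · refine ⟨hpΩ, fun ε hε => ?_⟩
    obtain ⟨q, hq, hd⟩ := Metric.mem_closure_iff.1 hp (ε / 2) (half_pos hε)
    filter_upwards [hq.2 (ε / 2) (half_pos hε)] with k ⟨z, a, b⟩
    exact ⟨z, a, by linarith [dist_triangle z q p, dist_comm p q]⟩

end Crest.Agent.N250.Cp

end
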