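import Crest.Agent.N250.T.Stm
import Crest.Agent.N250.Tr.Pull
import Crest.Agent.N250.Or.Had

/-!
Row 250, compactness, part 1 (helper96): forward persistence of points, the one sheet theorem at
every scale.
-/

set_option autoImplicit false
open MeasureTheory Set Filter Topology Metric
open scoped ContDiff InnerProductSpace
open Crest.GeometryTopology.MCF

noncomputable section

namespace Crest.Agent.N250.Cp

open Tr

theorem closed_of_proper {F : Mv} {B : Set ST} (hB : IsClosed B) (hP : F.Proper B) :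
    IsClosed (F.M ∩ B) := by
  refine isClosed_of_closure_subset fun p hp => ?_
  have h1 : p ∈ B := hB.closure_subset (closure_mono inter_subset_right hp)
  exact ⟨hP p (closure_mono inter_subset_left hp) h1, h1⟩

theorem proper_mono {F : Mv} {A B : Set ST} (hP : F.Proper B) (h : A ⊆ B) : F.Proper A :=
  fun p hp hA => hP p hp (h hA)

theorem reach_le {F : Mv} {p : ST} (hn : ‖F.n p‖ = 1) {ρ σ : ℝ} (h : F.Reach p ρ)
    (hσ : σ ≤ ρ) : F.Reach p σ := by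
  intro y hy
  obtain ⟨h1, h2⟩ := h y hy
  have e : ‖(ρ - σ) • F.n p‖ = ρ - σ := by
    rw [norm_smul, hn, mul_one, Real.norm_of_nonneg (by linarith)]
  have e1 : dist (p.1 + σ • F.n p) (p.1 + ρ • F.n p) = ρ - σ := by
    rw [dist_comm, dist_eq_norm, ← e]; congr 1; module
  have e2 : dist (p.1 - σ • F.n p) (p.1 - ρ • F.n p) = ρ - σ := by
    rw [dist_eq_norm, ← e]; congr 1; module
  have t1 := dist_triangle y (p.1 + σ • F.n p) (p.1 + ρ • F.n p)
  have t2 := dist_triangle y (p.1 - σ • F.n p) (p.1 - ρ • F.n p)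
  constructor <;> linarith

/-- points of a proper moving surface with bounded speed persist forward in time -/
theorem persist {F : Mv} (hF : F.Reg) {x0 : E} {t0 t1 v : ℝ} (hv : 0 ≤ v) (ht : t0 ≤ t1)
    (h0 : (x0, t0) ∈ F.M) (hP : F.Proper (closedBall x0 ((v + 1) * (t1 - t0)) ×ˢ Icc t0 t1))
    (hV : ∀ q ∈ F.M, q ∈ closedBall x0 ((v + 1) * (t1 - t0)) ×ˢ Icc t0 t1 → |F.V q| ≤ v) :
    ∃ x1, (x1, t1) ∈ F.M ∧ dist x1 x0 ≤ (v + 1) * (t1 - t0) := by
  set B : Set ST := closedBall x0 ((v + 1) * (t1 - t0)) ×ˢ Icc t0 t1 with hB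
  set S : Set ℝ := {s | ∃ y, (y, s) ∈ F.M ∧ dist y x0 ≤ (v + 1) * (s - t0)} with hS
  have hin : ∀ y s, dist y x0 ≤ (v + 1) * (s - t0) → s ∈ Icc t0 t1 → (y, s) ∈ B :=
    fun y s h1 h2 => ⟨h1.trans (by nlinarith [h2.2]), h2⟩
  have hBc : IsCompact B := (isCompact_closedBall _ _).prod isCompact_Icc
  have hc : IsClosed (S ∩ Icc t0 t1) := by
    have h1 : IsCompact ((F.M ∩ B) ∩ {q | dist q.1 x0 ≤ (v + 1) * (q.2 - t0)}) :=
      (hBc.of_isClosed_subset (closed_of_proper hBc.isClosed hP) inter_subset_right).inter_right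
        (isClosed_le (by fun_prop) (by fun_prop))
    have h2 : S ∩ Icc t0 t1 =
        Prod.snd '' ((F.M ∩ B) ∩ {q | dist q.1 x0 ≤ (v + 1) * (q.2 - t0)}) := by
      ext s
      constructor
      · rintro ⟨⟨y, h3, h4⟩, h5⟩
        exact ⟨(y, s), ⟨⟨h3, hin y s h4 h5⟩, h4⟩, rfl⟩
      · rintro ⟨q, ⟨⟨h3, h4⟩, h5⟩, rfl⟩
        exact ⟨⟨q.1, h3, h5⟩, h4.2⟩
    rw [h2]
    exact (h1.image continuous_snd).isClosed
  refine hc.Icc_subset_of_forall_exists_gt ⟨x0, h0, by simp⟩ ?_ ⟨ht, le_rfl⟩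
  rintro s ⟨⟨y, hy, hd⟩, hs⟩ s' hs'
  obtain ⟨W, φ, hW, hl⟩ := hF _ hy
  have hVy := hV _ hy (hin y s hd (Ico_subset_Icc_self hs))
  have hn := n_unit hF hy
  have hg : gradX φ y s ≠ 0 := hl.ne _ hW
  have hg' : ‖gradX φ y s‖ ≠ 0 := norm_ne_zero_iff.2 hg
  obtain ⟨γ, g0, g1, g2⟩ := Or.exists_curve (Or.SmN.of_on hl.isOpen hl.sm hW) ((hl.mem _ hW).1 hy)
    (fun h => hg (ext_inner_right ℝ fun w => by
      have := fd_sp (loc_diff hl hW) w
      rw [h] at this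
      simpa using this.symm)) (w := (F.V (y, s) • F.n (y, s), 1)) (by
      rw [fd_st (loc_diff hl hW), hl.n_eq _ hW hy, hl.V_eq _ hW hy]
      simp only [inner_smul_right, real_inner_self_eq_norm_sq]
      field_simp
      ring)
  have g3 : ∀ᶠ σ in 𝓝 (0:ℝ), γ σ ∈ W := by
    have := g1.continuousAt.tendsto
    rw [g0] at this
    exact this.eventually (hl.isOpen.mem_nhds hW)
  have hε : (0:ℝ) < 1 / (v + 2) := by positivity
  have g4 := (hasDerivAt_iff_isLittleO.1 g1).bound hε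
  have g5 : ∀ᶠ σ in 𝓝 (0:ℝ), (γ σ).2 < s' := by
    have := (continuous_snd.continuousAt.comp g1.continuousAt).tendsto
    simp only [Function.comp_apply, g0] at this
    exact this.eventually (gt_mem_nhds hs')
  obtain ⟨σ, ⟨a1, a2, a3, a4⟩, a5⟩ := (((g2.and (g3.and (g4.and g5))).filter_mono
    (nhdsWithin_le_nhds (s := Ioi 0))).and self_mem_nhdsWithin).exists
  have a5 : 0 < σ := a5
  rw [g0, sub_zero, Real.norm_of_nonneg a5.le] at a3
  have b1 := (norm_fst_le _).trans a3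
  have b2 := (norm_snd_le _).trans a3
  simp only [Prod.fst_sub, Prod.smul_fst, Prod.snd_sub, Prod.smul_snd, smul_eq_mul, mul_one,
    Real.norm_eq_abs] at b1 b2
  have b3 : dist (γ σ).1 y ≤ v * σ + 1 / (v + 2) * σ := by
    rw [dist_eq_norm]
    have e : (γ σ).1 - y = ((γ σ).1 - y - σ • F.V (y, s) • F.n (y, s))
        + σ • F.V (y, s) • F.n (y, s) := by abel
    rw [e]
    refine (norm_add_le _ _).trans ?_
    rw [norm_smul, norm_smul, hn, mul_one, Real.norm_of_nonneg a5.le, Real.norm_eq_abs]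
    nlinarith
  have b4 := (abs_le.1 b2).1
  have b5 : (v + 2) * (1 / (v + 2) * σ) = σ := by field_simp
  have b6 : 0 < 1 / (v + 2) * σ := by positivity
  refine ⟨(γ σ).2, ⟨(γ σ).1, (hl.mem _ a2).2 a1, ?_⟩, by nlinarith, a4.le⟩
  have := dist_triangle (γ σ).1 y x0
  nlinarith

theorem jet_affine {f : ST → ℝ} {W : Set ST} (hW : IsOpen W) (hf : ContDiffOn ℝ ∞ f W)
    (L : ST →L[ℝ] ST) (a : ST) {x : ST} (hx : L (x - a) ∈ W) (m : ℕ) :
    ‖iteratedFDeriv ℝ m (fun z => f (L (z - a))) x‖ ≤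
      ‖iteratedFDeriv ℝ m f (L (x - a))‖ * ‖L‖ ^ m := by
  have hW' : IsOpen (L ⁻¹' W) := hW.preimage L.continuous
  rw [iteratedFDeriv_comp_sub (f := fun z => f (L z)),
    ← iteratedFDerivWithin_of_isOpen m hW' hx, ← iteratedFDerivWithin_of_isOpen m hW hx]
  have := L.iteratedFDerivWithin_comp_right hf hW.uniqueDiffOn hW'.uniqueDiffOn hx
    (i := m) (by exact_mod_cast le_top)
  change ‖iteratedFDerivWithin ℝ m (f ∘ L) _ _‖ ≤ _
  rw [this]
  exact (ContinuousMultilinearMap.norm_compContinuousLinearMap_le _ _).trans_eq (by simp)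

/-- the one sheet theorem at the origin, in terms of the defining function -/
theorem sheet_unit (hS : SheetS) : ∃ (c : ℝ) (C : ℕ → ℝ), 0 < c ∧ ∀ (F : Mv), F.IsMCF →
    (0 : ST) ∈ F.M → F.Proper (PC 0 1) → (∀ p ∈ F.M ∩ PC 0 1, F.Reach p 1) →
    ∃ (W : Set ST) (φ : ST → ℝ), PC 0 c ⊆ W ∧ F.Loc W φ ∧
      (∀ p ∈ PC 0 c, 1 / 2 ≤ fderiv ℝ φ p (F.n 0, 0)) ∧
      ∀ m, ∀ p ∈ PC 0 c, ‖iteratedFDeriv ℝ m φ p‖ ≤ C m := by
  obtain ⟨c, C, hc, h⟩ := hS
  have hb : ∀ m : ℕ, ∃ B : ℝ, ∀ p ∈ closedBall (0 : ST) (c + c ^ 2),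
      ‖iteratedFDeriv ℝ m (fun q : ST => q.1) p‖ ≤ B := fun m =>
    (isCompact_closedBall _ _).exists_bound_of_continuousOn
      ((contDiff_fst (n := ∞)).continuous_iteratedFDeriv (by exact_mod_cast le_top)).continuousOn
  choose B hB using hb
  refine ⟨c, fun m => B m + C m, hc, fun F hF h0 hP hR => ?_⟩
  obtain ⟨W, u, h1, h2, -, h4, h5⟩ := h F 0 hF h0 hP hR
  have hn := n_unit hF.1 h0
  set ν := F.n 0
  have hl : ContDiff ℝ ∞ fun p : ST => ⟪p.1 - (0 : ST).1, ν⟫_ℝ :=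
    (contDiff_fst.sub contDiff_const).inner ℝ contDiff_const
  have hu : ∀ p ∈ PC 0 c, ContDiffAt ℝ ∞ u p := fun p hp => by
    have := hl.contDiffAt.sub (loc_at h2 (h1 hp))
    simpa using this
  have he : (fun p : ST => ⟪p.1 - (0 : ST).1, ν⟫_ℝ) = innerSL ℝ ν ∘ fun q : ST => q.1 := by
    funext p; simp [real_inner_comm]
  refine ⟨W, _, h1, h2, fun p hp => ?_, fun m p hp => ?_⟩
  · have hd := (hu p hp).differentiableAt (by simp)
    have e1 : HasFDerivAt (fun p : ST => ⟪p.1 - (0 : ST).1, ν⟫_ℝ)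
        ((innerSL ℝ ν).comp (ContinuousLinearMap.fst ℝ E ℝ)) p := by
      rw [he]; exact (innerSL ℝ ν).hasFDerivAt.comp p hasFDerivAt_fst
    rw [(e1.fun_sub hd.hasFDerivAt).fderiv, sub_apply, fd_sp hd]
    have e2 := (real_inner_le_norm (gradX u p.1 p.2) ν).trans
      (mul_le_mul_of_nonneg_right (h4 p hp) (norm_nonneg _))
    simp only [ContinuousLinearMap.comp_apply, ContinuousLinearMap.coe_fst', innerSL_apply_apply,
      real_inner_self_eq_norm_sq, hn] at e2 ⊢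
    linarith
  · have hm : (m : ℕ∞ω) ≤ ∞ := by exact_mod_cast le_top
    rw [fun_iteratedFDeriv_sub_apply (hl.contDiffAt.of_le hm) ((hu p hp).of_le hm)]
    refine (norm_sub_le _ _).trans (add_le_add ?_ (h5 m p hp))
    rw [he]
    refine ((innerSL ℝ ν).norm_iteratedFDeriv_comp_left contDiffAt_fst hm).trans ?_
    rw [innerSL_apply_norm, hn, one_mul]
    refine hB m p ?_
    obtain ⟨a, b, d⟩ := hp
    rw [mem_ball, dist_eq_norm] at a
    rw [mem_closedBall, dist_zero_right, Prod.norm_def]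
    simp only [Prod.fst_zero, Prod.snd_zero, sub_zero, zero_sub] at a b d
    refine max_le (by nlinarith) (abs_le.2 ⟨by linarith, by nlinarith⟩)

/-- the one sheet theorem at scale `ρ` -/
theorem sheet_scaled (hS : SheetS) : ∃ c : ℝ, 0 < c ∧ ∀ ρ : ℝ, 0 < ρ → ∃ C : ℕ → ℝ,
    ∀ (F : Mv) (X : ST), F.IsMCF → X ∈ F.M → F.Proper (PC X ρ) →
    (∀ p ∈ F.M ∩ PC X ρ, F.Reach p ρ) →
    ∃ (W : Set ST) (φ : ST → ℝ), PC X (c * ρ) ⊆ W ∧ F.Loc W φ ∧
      (∀ p ∈ PC X (c * ρ), 1 / (2 * ρ) ≤ ‖gradX φ p.1 p.2‖) ∧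
      ∀ m, ∀ p ∈ PC X (c * ρ), ‖iteratedFDeriv ℝ m φ p‖ ≤ C m := by
  obtain ⟨c, C, hc, h⟩ := sheet_unit hS
  refine ⟨c, hc, fun ρ hρ => ?_⟩
  set L : ST →L[ℝ] ST :=
    (ρ⁻¹ • ContinuousLinearMap.fst ℝ E ℝ).prod ((ρ ^ 2)⁻¹ • ContinuousLinearMap.snd ℝ E ℝ) with hL
  have hLa : ∀ p : ST, L p = (ρ⁻¹ • p.1, (ρ ^ 2)⁻¹ * p.2) := fun p => rfl
  refine ⟨fun m => C m * ‖L‖ ^ m, fun F X hF hX hP hR => ?_⟩
  let s : Sim := ⟨X.1, LinearIsometryEquiv.refl ℝ E, fun _ => ρ, fun t => X.2 + ρ ^ 2 * t, univ⟩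
  let s' : Sim := ⟨-(ρ⁻¹ • X.1), LinearIsometryEquiv.refl ℝ E, fun _ => ρ⁻¹,
    fun t => (ρ ^ 2)⁻¹ * (t - X.2), univ⟩
  have hs : ∀ p : ST, s.map p = (X.1 + ρ • p.1, X.2 + ρ ^ 2 * p.2) := fun p => rfl
  have hs' : ∀ p : ST, s'.map p = L (p - X) := fun p => by
    rw [hLa]
    refine Prod.ext ?_ rfl
    change -(ρ⁻¹ • X.1) + ρ⁻¹ • p.1 = ρ⁻¹ • (p.1 - X.1)
    module
  have hss : ∀ p : ST, s.map (s'.map p) = p := fun p => by
    rw [hs', hs, hLa]
    refine Prod.ext ?_ ?_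
    · simp [smul_smul, hρ.ne']
    · simp only [Prod.snd_sub]; field_simp; ring
  have hd1 : ∀ t, deriv (fun t => X.2 + ρ ^ 2 * t) t = ρ ^ 2 := fun t => by
    simp
  have hd2 : ∀ t, deriv (fun t => (ρ ^ 2)⁻¹ * (t - X.2)) t = (ρ ^ 2)⁻¹ := fun t => by
    simp
  let G : Mv := ⟨s.map ⁻¹' F.M, fun p => F.n (s.map p), fun p => ρ * F.V (s.map p)⟩
  have p1 : Pull s F G := ⟨⟨isOpen_univ, fun _ _ => hρ, fun _ _ => contDiffAt_const,
    fun _ _ => by change ContDiffAt ℝ ∞ (fun t => X.2 + ρ ^ 2 * t) _; fun_prop⟩,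
    fun p => by simp [G, s], fun _ _ => rfl, fun p _ => by
      change ρ * F.V (s.map p) = (deriv (fun t => X.2 + ρ ^ 2 * t) p.2 * F.V (s.map p)
        - deriv (fun _ => ρ) p.2 * _) / ρ
      rw [hd1, deriv_const]; field_simp; ring⟩
  have p2 : Pull s' G F := ⟨⟨isOpen_univ, fun _ _ => inv_pos.2 hρ, fun _ _ => contDiffAt_const,
    fun _ _ => by change ContDiffAt ℝ ∞ (fun t => (ρ ^ 2)⁻¹ * (t - X.2)) _; fun_prop⟩,
    fun p => by
      change _ ↔ p ∈ univ ∧ s.map (s'.map p) ∈ F.M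
      rw [hss]; simp,
    fun p _ => by
      change _ = F.n (s.map (s'.map p))
      rw [hss],
    fun p _ => by
      change _ = (deriv (fun t => (ρ ^ 2)⁻¹ * (t - X.2)) p.2 * (ρ * F.V (s.map (s'.map p)))
        - deriv (fun _ => ρ⁻¹) p.2 * _) / ρ⁻¹
      rw [hd2, deriv_const, hss]; field_simp; ring⟩
  have hsc : Continuous s.map := by
    change Continuous fun p : ST => (X.1 + ρ • p.1, X.2 + ρ ^ 2 * p.2); fun_prop
  have hPC : ∀ p ∈ PC 0 1, s.map p ∈ PC X ρ := by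
    rintro p ⟨a, b, d⟩
    rw [mem_ball, dist_eq_norm] at a
    simp only [Prod.fst_zero, Prod.snd_zero, sub_zero, zero_sub, one_pow] at a b d
    have hρ2 : 0 < ρ ^ 2 := by positivity
    rw [hs]
    refine ⟨?_, by dsimp only; nlinarith, by dsimp only; nlinarith⟩
    rw [mem_ball, dist_eq_norm, add_sub_cancel_left, norm_smul, Real.norm_of_nonneg hρ.le]
    nlinarith
  have hPC' : ∀ p ∈ PC X (c * ρ), L (p - X) ∈ PC 0 c := by
    rintro p ⟨a, b, d⟩
    rw [mem_ball, dist_eq_norm] at a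
    have hρ2 : 0 < ρ ^ 2 := by positivity
    rw [hLa]
    refine ⟨?_, ?_, ?_⟩
    · rw [mem_ball, dist_eq_norm, Prod.fst_zero, sub_zero, norm_smul,
        Real.norm_of_nonneg (inv_pos.2 hρ).le, inv_mul_lt_iff₀ hρ, mul_comm]
      exact a
    · simp only [Prod.snd_zero, Prod.snd_sub, zero_sub]
      rw [lt_inv_mul_iff₀ hρ2]; nlinarith
    · simp only [Prod.snd_zero, Prod.snd_sub]
      exact mul_nonpos_of_nonneg_of_nonpos (by positivity) (by linarith)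
  have h0 : s.map 0 = X := by rw [hs]; simp
  obtain ⟨W, φ, h1, h2, h3, h4⟩ := h G
    ⟨p1.reg hF.1, fun p hp => by
      rw [p1.H hF.1 hp, ← mul_neg, ← hF.2 _ (p1.M hp)]⟩
    (by change s.map 0 ∈ F.M; rwa [h0])
    (fun p hp hp2 => hP _ (map_mem_closure hsc hp fun _ h => h) (hPC p hp2))
    (fun p hp y hy => by
      obtain ⟨a, b⟩ := hR _ ⟨hp.1, hPC p hp.2⟩ (X.1 + ρ • y) hy
      change _ ≤ dist y (p.1 + (1:ℝ) • F.n (s.map p)) ∧ _ ≤ dist y (p.1 - (1:ℝ) • F.n (s.map p))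
      rw [dist_eq_norm] at a b ⊢
      rw [dist_eq_norm]
      have e1 : X.1 + ρ • y - ((s.map p).1 + ρ • F.n (s.map p))
          = ρ • (y - (p.1 + (1:ℝ) • F.n (s.map p))) := by rw [hs]; module
      have e2 : X.1 + ρ • y - ((s.map p).1 - ρ • F.n (s.map p))
          = ρ • (y - (p.1 - (1:ℝ) • F.n (s.map p))) := by rw [hs]; module
      rw [e1, norm_smul, Real.norm_of_nonneg hρ.le] at a
      rw [e2, norm_smul, Real.norm_of_nonneg hρ.le] at b
      exact ⟨(le_mul_iff_one_le_right hρ).1 a, (le_mul_iff_one_le_right hρ).1 b⟩)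
  have hl := p2.loc h2
  have hφ : φ ∘ s'.map = fun z => φ (L (z - X)) := funext fun z => by
    rw [Function.comp_apply, hs']
  have hsub : PC X (c * ρ) ⊆ s'.U ∩ s'.map ⁻¹' W := fun p hp =>
    ⟨mem_univ _, by rw [mem_preimage, hs']; exact h1 (hPC' p hp)⟩
  refine ⟨_, _, hsub, hl, fun p hp => ?_, fun m p hp => ?_⟩
  · have hn := n_unit hF.1 hX
    have e1 := fd_sp (loc_diff hl (hsub hp)) (F.n X)
    have e2 : HasFDerivAt (fun z : ST => L (z - X)) L p := by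
      have := L.hasFDerivAt.comp p ((hasFDerivAt_id p).sub_const X)
      rw [ContinuousLinearMap.comp_id] at this
      exact this
    have e3 := (loc_diff h2 (h1 (hPC' p hp))).hasFDerivAt.comp p e2
    have e4 : fderiv ℝ (φ ∘ s'.map) p = (fderiv ℝ φ (L (p - X))).comp L := by
      rw [hφ]; exact e3.fderiv
    have e5 := h3 _ (hPC' p hp)
    have e6 : G.n 0 = F.n X := by change F.n (s.map 0) = _; rw [h0]
    have e7 : L (F.n X, 0) = ρ⁻¹ • (F.n X, 0) := by rw [hLa]; simp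
    rw [e4, ContinuousLinearMap.comp_apply, e7, map_smul, smul_eq_mul] at e1
    rw [e6] at e5
    have e8 := real_inner_le_norm (gradX (φ ∘ s'.map) p.1 p.2) (F.n X)
    rw [hn, mul_one, ← e1] at e8
    refine le_trans ?_ e8
    rw [one_div, mul_inv, mul_comm]
    exact mul_le_mul_of_nonneg_left (by linarith) (inv_pos.2 hρ).le
  · rw [hφ]
    exact (jet_affine h2.isOpen h2.sm L X (h1 (hPC' p hp)) m).trans
      (mul_le_mul_of_nonneg_right (h4 m _ (hPC' p hp)) (by positivity))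

end Crest.Agent.N250.Cp

end
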